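import Crest.Agent.X212.Der92.Nv
import Crest.Agent.X212.Der92.Var
import Crest.Agent.X212.Lin97.Emb

/-!
# Row 212, CRIT-DERI (helper92), part 5: `DerIStmt`
-/

set_option autoImplicit false
set_option linter.unusedSectionVars false
noncomputable section
open scoped Manifold ContDiff Topology InnerProductSpace
open MeasureTheory Set Function Filter

namespace Crest.Agent.X212.Der92
open An Sob92 Wrd81 Nt92 Cyf70 Cyc79 Spn45 Dgr80 Nd18 Crt72 Lin97 Wz78

variable {E3 : Type} [NormedAddCommGroup E3] [NormedSpace ℝ E3] [FiniteDimensional ℝ E3]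
  [MeasurableSpace E3] [BorelSpace E3]
  {H3 : Type} [TopologicalSpace H3] {I3 : ModelWithCorners ℝ E3 H3} [I3.Boundaryless]
  {Y : Type} [TopologicalSpace Y] [ChartedSpace H3 Y] [IsManifold I3 ∞ Y] [T2Space Y]
  [MeasurableSpace Y] [BorelSpace Y] [SecondCountableTopology Y] [CompactSpace Y]
  {κ : Type} [Fintype κ] {lam : Type} [Fintype lam] {D : YD I3 Y κ lam} {β : YC Y κ lam}
  {d : Cy Y} {w : List (La Y)} {l l' : Y → β.m.A}

theorem adj_mul {V : Type} [NormedAddCommGroup V] [InnerProductSpace ℝ V] [CompleteSpace V] (r : ℝ)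
    (a : V) : ContinuousLinearMap.adjoint (r • (1 : CL V V)) a = r • a :=
  ext_inner_right ℝ fun b => by
    simp [real_inner_smul_left]

theorem ok_laY (hw : ∀ t ∈ w, laOK I3 t) : ∀ t ∈ w.map (laV β.m.A), t.Ok (Sm I3) :=
  List.forall_mem_map.2 fun t ht => by
    have := hw t ht
    cases t
    exacts [fun u hu => ⟨sm_smul this hu, by simpa only [adj_mul] using sm_smul this hu⟩, trivial]

theorem sm_cmp {V : Type} [NormedAddCommGroup V] [InnerProductSpace ℝ V] {α : Y → Fm κ V}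
    (hα : Sm I3 α) (a : κ) : Sm I3 fun y => α y a :=
  (PiLp.proj 2 (fun _ : κ => V) a : Fm κ V →L[ℝ] _).contMDiff.comp hα

theorem la_zl (w : List (La Y)) :
    (w.map D.nk.la).map (laS (cy β)) = (w.map (laV β.m.A)).map zl := by
  rw [la_lz, List.map_map, List.map_map]
  exact List.map_congr_left fun t _ => by cases t <;> rfl

variable (D β) in
/-- the gradient of the seed -/
def σy (d : Cy Y) (l : Y → β.m.A) (y : Y) : Fm κ β.m.A :=
  dw κ _ (((D.nk.cyc d).sed D.Z).sA (cy β) (fun x => l x.1) (y, 0))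

variable (D β) in
/-- the gradient of a word on the seed -/
def gy (d : Cy Y) (w : List (La Y)) (l : Y → β.m.A) (y : Y) : Fm κ β.m.A :=
  gc D.F (an β) (adR _) (sy D β d) (w.map (laV _)) l y + σy D β d (bk D.F (an β) (w.map (laV _)) l) y

section hy
variable (h : Hy D β)
include h

theorem sm_σy (hd : d.OK D.F) (hl : Sm I3 l) : Sm I3 (σy D β d l) :=
  (dw κ _).contMDiff.comp (sm_slice_fst (Cy.sm_sA (co h) (cyc_ok hd)
    (Cht98.Cb_fst D.F.toPre (Cb_of_compact hl))) 0)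

theorem sm_gy (hd : d.OK D.F) (hw : ∀ t ∈ w, laOK I3 t) (hl : Sm I3 l) : Sm I3 (gy D β d w l) :=
  ((cls (rhA h)).sm_gc (rhA h).mc.sm (ok_laY hw) hl).add
    (sm_σy h hd ((cls (rhA h)).bk (ok_laY hw) hl))

theorem σy_add (hd : d.OK D.F) (hl : Sm I3 l) (hl' : Sm I3 l') (y : Y) :
    σy D β d (fun x => l x + l' x) y = σy D β d l y + σy D β d l' y := by
  have c := co h
  have k := cyc_ok hd
  have a := Cht98.Cb_fst D.F.toPre (Cb_of_compact (F := D.F.toPre) hl)
  have b := Cht98.Cb_fst D.F.toPre (Cb_of_compact (F := D.F.toPre) hl')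
  have e : ∀ {f f' w w'}, Sep D.Z.toPre f f' → (∀ t ∈ w, La.OK D.Z t) → (∀ t ∈ w', La.OK D.Z t) →
      ∀ x, gh D.Z (cy β) f f' w w' (adl D.Z (cy β) fun x => l x.1 + l' x.1) x =
        gh D.Z (cy β) f f' w w' (adl D.Z (cy β) fun x => l x.1) x +
        gh D.Z (cy β) f f' w w' (adl D.Z (cy β) fun x => l' x.1) x := by
    intro f f' w w' hs hw hw' x
    have e0 : ∀ u, adl D.Z (cy β) (fun x => l x.1 + l' x.1) u = fun x =>
        adl D.Z (cy β) (fun x => l x.1) u x + adl D.Z (cy β) (fun x => l' x.1) u x := fun u =>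
      funext fun x => (congrArg (fun z => Cyc79.rr D.Z (cy β) z (u x)) (map_add _ _ _)).trans
        (by rw [map_add]; rfl)
    have o := fun {w} (hw : ∀ t ∈ w, La.OK D.Z t) => List.forall_mem_append.2 ⟨hw, hs.ok⟩
    have q1 := c.qi_wv (c.qi_bf hs.symm) (o hw')
    have q2 := c.qi_wv (c.qi_bf hs) hw'
    have g := fun s {w u v} => gc_addQ c.cls c.pp.toOk.bmp c.mc (Cyc79.rr D.Z (cy β)) s (w := w)
      (s := u) (t := v)
    simp only [gh, e0]
    erw [g _ (ok_map (o hw)) (c.qi_adl a q1) (c.qi_adl b q1),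
      bk_addQ c.cls c.pp.toOk.bmp c.mc (ok_map (o hw)) (c.qi_adl a q2) (c.qi_adl b q2),
      g _ (ok_map hs.symm.ok) (c.cls.bk (ok_map (o hw)) (c.qi_adl a q2))
        (c.cls.bk (ok_map (o hw)) (c.qi_adl b q2))]
    exact add_add_add_comm _ _ _ _
  rw [σy, σy, σy, ← map_add]
  exact congrArg _ ((congrArg₂ (· - ·) (e k.sep k.w' k.w _) (e k.sep k.w k.w' _)).trans
    (add_sub_add_comm _ _ _ _))

theorem gy_add (hd : d.OK D.F) (hw : ∀ t ∈ w, laOK I3 t) (hl : Sm I3 l) (hl' : Sm I3 l') (y : Y) :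
    gy D β d w (fun x => l x + l' x) y = gy D β d w l y + gy D β d w l' y := by
  have r := rhA h
  rw [gy, gc_addQ (cls r) r.bmp r.mc _ _ (ok_laY hw) hl hl',
    bk_addQ (cls r) r.bmp r.mc (ok_laY hw) hl hl',
    σy_add h hd ((cls r).bk (ok_laY hw) hl) ((cls r).bk (ok_laY hw) hl')]
  exact add_add_add_comm _ _ _ _

theorem s_wd (hd : d.OK D.F) (w : List (La Y)) :
    (((D.nk.cyc d).sed D.Z).wd D.Z (w.map D.nk.la)).s (cy β) = fun x => wy D β d w x.1 := by
  change wd _ _ _ = _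
  rw [la_eq, la_zl, adW_ca h, s_fst h hd]
  exact wd_zl D.F (rhA h).mc _ _

theorem sA_wd (hd : d.OK D.F) (w : List (La Y)) (l : Y → β.m.A) (y : Y) :
    dw κ β.m.A ((((D.nk.cyc d).sed D.Z).wd D.Z (w.map D.nk.la)).sA (cy β) (fun x => l x.1) (y, 0)) =
      gy D β d w l y := by
  refine (map_add _ _ _).trans (congrArg₂ (· + ·) ?_ ?_)
  · rw [la_zl, adW_ca h, s_fst h hd]
    exact gc_zl D.F _ (rhA h).mc _ _ _ (y, 0)
  · rw [la_zl, adW_ca h]
    exact congrArg (fun u => dw κ β.m.A (((D.nk.cyc d).sed D.Z).sA (cy β) u (y, 0)))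
      (bk_zl D.F (rhA h).mc _ _)

theorem gA_cy (j : Bc D) (y : Y) : (yf D (.cy j)).gA β y =
    gy D β j.1.1.1 j.1.1.2 (wy D β j.1.2.1 j.1.2.2) y +
      gy D β j.1.2.1 j.1.2.2 (wy D β j.1.1.1 j.1.1.2) y := by
  obtain ⟨⟨⟨d, w⟩, d', w'⟩, a, -, b, -⟩ := j
  refine (map_add _ _ _).trans (congrArg₂ (· + ·) ?_ ?_)
  · rw [← sA_wd h a, ← s_wd h b]
    simp only [nk_χ, mul_one, one_smul]
    rfl
  · rw [← sA_wd h b, ← s_wd h a]
    simp only [nk_χ, mul_one, one_smul]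
    rfl

theorem nT_adR {ξ : Y → β.m.A} (hξ : Sm I3 ξ) (a : κ) (x : Y) :
    nT D.F (an β) (an β) a (fun y => adR _ (ξ y)) x = adR _ (nab I3 D.F.e (an β) a ξ x) := by
  rw [nT, nab, map_add, ← Pre.D_def, Cyc79.D_clm D.F.toPre _ hξ, add_sub_assoc]
  congr 1
  rw [adR_apply, adR_apply, an, Md.adW, opL_adc, adc_lie]
  rfl

theorem int_dga {ξ : Y → β.m.A} (hξ : Sm I3 ξ) {α : Y → Fm κ β.m.A} (hα : Sm I3 α) :
    ∫ y, ⟪dga D β ξ y, α y⟫_ℝ ∂D.F.μ = ∫ y, ⟪ξ y, sga D β α y⟫_ℝ ∂D.F.μ := by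
  have s := sm_cmp hα
  have m := (rhA h).mc
  have i1 := fun a => int_inner (F := D.F) (sm_cov D.F.toPre m.sm hξ a) (s a)
  have i2 := fun a => int_inner (F := D.F) hξ (sm_cov D.F.toPre m.sm (s a) a)
  have i3 := fun a => integrable_dv D.F hξ (hcs _) (s a) a
  simp only [dga, sga, PiLp.inner_apply (f := fun _ : κ => β.m.A), inner_neg_left, inner_sum, inner_add_right,
    real_inner_smul_right]
  erw [integral_finsetSum _ fun a _ => (i1 a).neg, integral_finsetSum _ fun a _ => (i2 a).add (i3 a)]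
  refine Finset.sum_congr rfl fun a _ => ?_
  erw [integral_neg, integral_add (i2 a) (i3 a)]
  linarith [ibp_cov D.F m.sm m.sk hξ (hcs _) (s a) a]

/-- the smooth Coulomb decomposition at a configuration with vanishing spinor -/
theorem coul (h0 : D.Zr β) (hn : ¬D.Ln β) (α : Sec I3 (pc D β)) :
    ∃ ξ : Sec I3 β.m.pg, sga D β (dga D β ξ.1) = sga D β α.1 := by
  have r : ∀ j, D.F.Rep (Crt72.sg D β j ∘L d0 D β 1 (j + 1))
      fun u => (1 / 4 : ℝ) • sga D β (dga D β u) + sgp β (dgp β u) := fun j => by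
    convert RepT_add (RepT_smul (1 / 4 : ℝ) (RepT_comp (h.rep_sga j) (h.rep_dga (j + 1))))
      (RepT_comp (h.rep_sgp j) (h.rep_dgp (j + 1))) using 1
    ext1 η
    simp [Crt72.sg, d0]
  let v : Sec I3 β.m.pg := (1 / 4 : ℝ) • ⟨_, RepT_mem (h.rep_sga 0) α⟩
  choose x hx using fun j => (h.bij j (.inr hn)).2 (D.F.toH j _ v)
  obtain ⟨ξ, e⟩ := Ell97.sec_of_all h.tame.choose_spec (x := x 0) fun j hj => by
    obtain ⟨j, rfl⟩ : ∃ i, j = i + 1 + 1 := ⟨j - 2, by omega⟩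
    refine ⟨x j, (h.bij 0 (.inr hn)).1 ?_⟩
    rw [← Rep_incl (r j) (r 0) hj j.zero_le, hx, hx, incl_toH j.zero_le]
  have e1 := hx 0
  rw [← e, RepT_toH (r 0)] at e1
  have e2 := congrArg Subtype.val (Ell97.toH_inj D.F 0 _ e1)
  refine ⟨ξ, funext fun y => smul_right_injective _ (by norm_num : (1 / 4 : ℝ) ≠ 0) ?_⟩
  simpa [v, sgp, h0 y, Md.q, ← Map77.rkL_apply] using congrFun e2 y

end hy

theorem derI : DerIStmt D := by
  intro hD β hβ h0 hn α hy
  have h : Hy D β := ⟨hD, hβ⟩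
  have r := rhA h
  obtain ⟨ξ, hξ⟩ := coul h h0 hn α
  have sd : Sm I3 (dga D β ξ.1) := (RepT_mem (h.rep_dga 0) ξ).1
  let γ : Y → Fm κ β.m.A := fun y => α.1 y - dga D β ξ.1 y
  have sγ : Sm I3 γ := α.2.1.sub sd
  have pγ : ∀ y, pc D β y (γ y) = γ y := fun y => by
    simp only [γ, map_sub, α.2.2.2 y, h.pc_dga]
  have z : ∀ y, sga D β γ y = 0 := fun y => by
    rw [← sub_eq_zero.2 (congrFun hξ y).symm]
    simp only [sga, γ, PiLp.sub_apply, nab_sub _ (sm_cmp α.2.1 _ y) (sm_cmp sd _ y), ← Finset.sum_sub_distrib,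
      smul_sub, add_sub_add_comm]
  have g := fun y => pc_g (α.2.2.2 y)
  have i := fun {d w l} a b c => int_inner (F := D.F) (sm_gy h (d := d) (w := w) (l := l) a b c) α.2.1
  have t := var_tr (W := {j : Cy Y × List (La Y) // j.1.OK D.F ∧ ∀ t ∈ j.2, laOK I3 t}) r (ppA h)
    (sm_rv (r := adR _) α.2.1) (fun a y => by
      simp only [rv, ← map_smul, ← map_sum, pc_P (α.2.2.2 y)])
    (fun j => wy D β j.1.1 j.1.2) (fun j l => ∫ y, ⟪gy D β j.1.1 j.1.2 l y, α.1 y⟫_ℝ ∂D.F.μ)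
    (fun j => sp_wy h j.2.1 j.2.2)
    (fun j l l' a b => by
      simp only [gy_add h j.2.1 j.2.2 a.1 b.1, inner_add_left]
      exact integral_add (i j.2.1 j.2.2 a.1) (i j.2.1 j.2.2 b.1))
    (fun j f hf => ⟨⟨(j.1.1, .mul f :: j.1.2), j.2.1, List.forall_mem_cons.2 ⟨hf, j.2.2⟩⟩, rfl,
      fun l _ => by simp only [gy, List.map_cons, laV, gc, bk, slT, adj_mul]⟩)
    (fun j => ⟨⟨(j.1.1, .G :: j.1.2), j.2.1, List.forall_mem_cons.2 ⟨trivial, j.2.2⟩⟩, rfl,
      fun l _ => by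
        have a := Mp86.sm_res D.F (an β) l
        have b := Mp86.sm_res D.F (an β) (wy D β j.1.1 j.1.2)
        erw [int_dm r α.2.1 (fun y a => adR_skw (g y a)) b a, ← integral_sub (i j.2.1 j.2.2 a)
          (int_inner (sm_cur r.mc.sm b a) α.2.1)]
        simp only [gy, List.map_cons, laV, gc, bk, slT, ← inner_sub_left, sub_add_eq_add_sub]
        rfl⟩)
    (fun j j' => by
      have := hy ⟨(j.1, j'.1), j.2.1, j.2.2, j'.2⟩
      simp only [ipg, gA_cy h, Pi.zero_apply, inner_zero_right, add_zero, inner_add_left] at this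
      rwa [integral_add (i j.2.1 j.2.2 (sp_wy h j'.2.1 j'.2.2).1)
        (i j'.2.1 j'.2.2 (sp_wy h j.2.1 j.2.2).1)] at this)
    (fun y v a b => nv h hn y v a fun d w c e => b ⟨(d, w), c, e⟩) (stdOrthonormalBasis ℝ _)
    (sm_rv (r := adR _) sγ) (fun a y v => pg_of_mem (adR_mem (pc_g (pγ y) a) (pg_mem y v)))
    fun y => by
      have := congrArg (adR (Fin β.m.N)) (z y)
      simp only [sga, map_sum, map_add, map_smul, map_zero, ← nT_adR h (sm_cmp sγ _)] at this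
      exact this
  have j := fun a (u : β.m.A) => int_inner (F := D.F)
    ((sm_rv (r := adR _) α.2.1 a).clm_apply (h.sm_pg.clm_apply (contMDiff_const (c := u))))
    ((sm_rv (r := adR _) sγ a).clm_apply (h.sm_pg.clm_apply (contMDiff_const (c := u))))
  simp only [← integral_finsetSum _ fun i _ => j _ _] at t
  rw [← integral_finsetSum _ fun a _ => integrable_finsetSum _ fun i _ => j a _] at t
  replace t : ∫ y, 1 / 2 * ⟪α.1 y, γ y⟫_ℝ ∂D.F.μ = 0 :=
    (integral_congr_ae (.of_forall fun y => by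
      rw [PiLp.inner_apply, Finset.mul_sum]
      exact Finset.sum_congr rfl fun a _ => (killing h (g y a) (pc_g (pγ y) a) _).symm)).trans t
  rw [integral_const_mul] at t
  have e : ⟪jH D.F.toPre γ, jH D.F.toPre γ⟫_ℝ = 0 := by
    rw [inner_jH sγ sγ]
    conv_lhs => enter [2, y, 2]; simp only [γ]
    simp only [inner_sub_left]
    rw [integral_sub (int_inner α.2.1 sγ) (int_inner sd sγ), int_dga h ξ.2.1 sγ]
    simp only [z, inner_zero_right, integral_zero]
    linarith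
  rw [inner_self_eq_zero, jH_eq sγ, ← map_zero (D.F.toH 0 _)] at e
  exact ⟨ξ, funext fun y => sub_eq_zero.1
    (congrFun (congrArg Subtype.val (Ell97.toH_inj D.F 0 _ e)) y)⟩

end Crest.Agent.X212.Der92
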